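import Vale.Agent.P291.B1Blk

/-!
# P291, regular parameters: the cut projector for a downward closed class of partitions
-/

set_option linter.unusedSectionVars false

open scoped Classical
open MvPolynomial

namespace Vale.Agent.P291

namespace H809

noncomputable section

variable {k : Type*} [CommRing k] {V : Type*} {ι κ : Type*} [Fintype ι] [Fintype κ]

namespace Data

variable (Q : Data k V ι κ)

/-- the ideal of the terms of a class of partitions -/
def multiP (P : Setoid (Option V) → Prop) : Ideal (MvPolynomial V k) :=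
  Ideal.span {z | ∃ B : Setoid (Option V), P B ∧ z = Q.Y B * Q.Dn B}

/-- the ideal of the cuts in a class of partitions -/
def cutP (P : Setoid (Option V) → Prop) : Ideal (MvPolynomial V k) :=
  Ideal.span {z | ∃ U : Finset V, P (cutRel U) ∧ z = Q.Y (cutRel U)}

variable {P : Setoid (Option V) → Prop} (hP : ∀ B B', P B → B' ≤ B → P B')

include hP in
theorem projP_multi (U : Finset V) {g : MvPolynomial V k} (hg : g ∈ Q.multiP P) :
    Q.proj U g ∈ Q.multiP P := by
  refine Submodule.closure_induction (p := fun x _ => Q.proj U x ∈ Q.multiP P) ?_ ?_ ?_ hg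
  · have : Q.proj U 0 = 0 := (Q.projHom U).map_zero
    rw [this]; exact Ideal.zero_mem _
  · intro x y _ _ hx hy
    rw [proj_add]; exact Ideal.add_mem _ hx hy
  · rintro r x ⟨B, hB, rfl⟩
    obtain ⟨h', hh⟩ := Q.proj_mem U B r
    rw [smul_eq_mul, hh]
    exact Ideal.mul_mem_left _ _ (Ideal.subset_span ⟨B ⊓ cutRel U, hP B _ hB inf_le_left, rfl⟩)

include hP in
theorem projListP_sub_mem (L : List (Finset V)) (hL : ∀ U ∈ L, P (cutRel U))
    (g : MvPolynomial V k) :
    Q.projList L (g * Q.Dn ⊤) - g * Q.Dn ⊤ ∈ Q.multiP P := by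
  induction L with
  | nil => simp [projList]
  | cons U L ih =>
    have ih' := ih (fun U' h => hL U' (List.mem_cons_of_mem _ h))
    rw [projList_cons]
    have hU := hL U List.mem_cons_self
    have h1 : Q.proj U (g * Q.Dn ⊤) ∈ Q.multiP P := by
      obtain ⟨h', hh⟩ := Q.proj_mem U ⊤ g
      have hY : Q.Y (⊤ : Setoid (Option V)) = 1 := by
        unfold Y
        apply Finset.prod_eq_one
        intro e he
        exact absurd (show (⊤ : Setoid (Option V)).r _ _ from trivial) (Finset.mem_filter.1 he).2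
      rw [hY, one_mul, top_inf_eq] at hh
      rw [hh]
      exact Ideal.mul_mem_left _ _ (Ideal.subset_span ⟨_, hU, rfl⟩)
    have h2 : Q.proj U (Q.projList L (g * Q.Dn ⊤)) ∈ Q.multiP P := by
      have e : Q.projList L (g * Q.Dn ⊤) =
        (Q.projList L (g * Q.Dn ⊤) - g * Q.Dn ⊤) + g * Q.Dn ⊤ := by ring
      rw [e, proj_add]
      exact Ideal.add_mem _ (Q.projP_multi hP U ih') h1
    have e2 : Q.projList L (g * Q.Dn ⊤) - Q.proj U (Q.projList L (g * Q.Dn ⊤)) - g * Q.Dn ⊤ =
      (Q.projList L (g * Q.Dn ⊤) - g * Q.Dn ⊤) - Q.proj U (Q.projList L (g * Q.Dn ⊤)) := by ring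
    rw [e2]
    exact Ideal.sub_mem _ ih' h2

include hP in
/-- the main result of the cut projector for a downward closed class of partitions -/
theorem mem_multiP_of_mem_cutP [Finite V] {g : MvPolynomial V k}
    (hg : g * Q.Dn ⊤ ∈ Q.cutP P) : g * Q.Dn ⊤ ∈ Q.multiP P := by
  have := Fintype.ofFinite V
  let L : List (Finset V) := (Finset.univ.filter (fun U : Finset V => P (cutRel U))).toList
  have hL : ∀ U ∈ L, P (cutRel U) := by
    intro U hU
    simpa [L] using hU
  have hkill : Q.projList L (g * Q.Dn ⊤) = 0 := by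
    refine Submodule.closure_induction (p := fun x _ => Q.projList L x = 0) ?_ ?_ ?_ hg
    · exact map_zero _
    · intro x y _ _ hx hy
      rw [map_add, hx, hy, add_zero]
    · rintro r x ⟨U, hU, rfl⟩
      rw [smul_eq_mul, mul_comm]
      exact Q.projList_kills L (by simp [L, hU]) r
  have h := Q.projListP_sub_mem hP L hL g
  rw [hkill, zero_sub] at h
  simpa using (Ideal.neg_mem_iff _).1 h

end Data

end

end H809

variable {I E B Λ : Type*} [Fintype E] [DecidableEq I] [Fintype B] [DecidableEq B] [CommRing Λ]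
  [IsDomain Λ]
variable (Q : QD I E B Λ)

open B1 in
/-- spans of `kap g` for a downward closed class of partitions -/
theorem cutP_span {P : Setoid (Option B) → Prop} (hP : ∀ S S', P S → S' ≤ S → P S')
    {f : SS B Λ}
    (hf : Q.D * f ∈ Ideal.span {z | ∃ U : Finset B, P (H809.cutRel U) ∧ z = Q.cut U}) :
    ∃ s : Finset (B → ℕ), ∃ a : (B → ℕ) → SS B Λ,
      (∀ g ∈ s, ∃ S : Setoid (Option B), P S ∧ ∀ b, g b = col S (some b)) ∧
      toK f = ∑ g ∈ s, toK (a g) * Q.kap g := by
  have h1 : Ideal.span {z | ∃ U : Finset B, P (H809.cutRel U) ∧ z = Q.cut U} ≤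
      (dat Q).cutP P := by
    rw [Ideal.span_le]
    rintro z ⟨U, hU, rfl⟩
    obtain ⟨s, hs, hY⟩ := Y_eq Q (H809.cutRel U)
    have h2 : Q.cut U = s * (dat Q).Y (H809.cutRel U) := by
      rw [cut_eq, hY, ← mul_assoc, hs, one_mul]
    rw [h2]
    exact Ideal.mul_mem_left _ _ (Ideal.subset_span ⟨U, hU, rfl⟩)
  have h2 : f * (dat Q).Dn ⊤ ∈ (dat Q).multiP P := by
    apply H809.Data.mem_multiP_of_mem_cutP _ hP
    rw [Dn_top, mul_comm]
    exact h1 hf
  rw [Dn_top] at h2
  set KS : Submodule (SS B Λ) (KK B Λ) :=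
    Submodule.span (SS B Λ)
      (Q.kap '' {g | ∃ S : Setoid (Option B), P S ∧ ∀ b, g b = col S (some b)}) with hKS
  have hterm : ∀ (S : Setoid (Option B)), P S → ∀ r : SS B Λ,
      toK (r * ((dat Q).Y S * (dat Q).Dn S)) / toK Q.D ∈ KS := by
    intro S hS r
    obtain ⟨s, -, hs⟩ := Y_eq Q S
    have hk : Q.kap (fun b => col S (some b)) ∈ KS :=
      Submodule.subset_span ⟨_, ⟨S, hS, fun _ => rfl⟩, rfl⟩
    have h1 : toK (r * ((dat Q).Y S * (dat Q).Dn S)) / toK Q.D =
        (r * s) • Q.kap (fun b => col S (some b)) := by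
      rw [Algebra.smul_def, ← Dn_mul Q S, hs]
      unfold QD.kap
      have e1 : toK ((dat Q).Dn S) ≠ 0 := by
        apply B1.toK_ne_zero
        intro e
        have := Dn_mul Q S
        rw [e, zero_mul] at this
        exact D_ne_zero Q this.symm
      have e2 : toK (Q.denG (fun b => col S (some b))) ≠ 0 := B1.toK_ne_zero (denG_ne_zero Q _)
      simp only [toK, map_mul] at e1 e2 ⊢
      field_simp
    rw [h1]
    exact Submodule.smul_mem _ _ hk
  have h3 : ∀ x ∈ (dat Q).multiP P, toK x / toK Q.D ∈ KS := by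
    intro x hx
    refine Submodule.closure_induction (p := fun x _ => toK x / toK Q.D ∈ KS) ?_ ?_ ?_ hx
    · simp
    · intro x y _ _ hx hy
      have : toK (x + y) / toK Q.D = toK x / toK Q.D + toK y / toK Q.D := by
        simp only [toK, map_add]
        rw [add_div]
      rw [this]
      exact Submodule.add_mem _ hx hy
    · rintro r x ⟨S, hS, rfl⟩
      exact hterm S hS r
  have h4 : toK f ∈ KS := by
    have := h3 _ h2
    have e : toK (f * Q.D) / toK Q.D = toK f := by
      simp only [toK, map_mul]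
      exact mul_div_cancel_right₀ _ (B1.toK_ne_zero (D_ne_zero Q))
    rwa [e] at this
  rw [hKS, Finsupp.mem_span_image_iff_linearCombination] at h4
  obtain ⟨l, hl, hl'⟩ := h4
  refine ⟨l.support, l, ?_, ?_⟩
  · intro g hg
    exact (Finsupp.mem_supported _ _).1 hl hg
  · rw [← hl', Finsupp.linearCombination_apply, Finsupp.sum]
    apply Finset.sum_congr rfl
    intro g _
    rw [Algebra.smul_def]

/-- The unframed version of `JD_span`: cuts by proper nonempty subsets of the boxes. -/
theorem H363.JDU_span {f : SS B Λ}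
    (hf : Q.D * f ∈ Ideal.span {z | ∃ U : Finset B, U.Nonempty ∧ U ≠ Finset.univ ∧ z = Q.cut U}) :
    ∃ s : Finset (B → ℕ), ∃ a : (B → ℕ) → SS B Λ, (∀ g ∈ s, ∃ b b', g b ≠ g b') ∧
      toK f = ∑ g ∈ s, toK (a g) * Q.kap g := by
  have hsub : Ideal.span {z | ∃ U : Finset B, U.Nonempty ∧ U ≠ Finset.univ ∧ z = Q.cut U} ≤
      Ideal.span {z | ∃ U : Finset B,
        (∃ b b' : B, ¬ (H809.cutRel U).r (some b) (some b')) ∧ z = Q.cut U} := by
    refine Ideal.span_mono ?_
    rintro z ⟨U, ⟨b, hb⟩, hU, rfl⟩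
    have hU' : ∃ b', b' ∉ U := by
      by_contra h
      push Not at h
      exact hU (Finset.eq_univ_iff_forall.2 h)
    obtain ⟨b', hb'⟩ := hU'
    refine ⟨U, ⟨b, b', fun h => ?_⟩, rfl⟩
    have h1 : H809.mem U (some b) ↔ H809.mem U (some b') := h
    rw [H809.mem_some, H809.mem_some] at h1
    exact hb' (h1.1 hb)
  obtain ⟨s, a, h1, h2⟩ := cutP_span Q
    (P := fun S => ∃ b b' : B, ¬ S.r (some b) (some b'))
    (fun S S' ⟨b, b', h⟩ hle => ⟨b, b', fun h' => h (hle h')⟩) (hsub hf)
  refine ⟨s, a, fun g hg => ?_, h2⟩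
  obtain ⟨S, ⟨b, b', h3⟩, h4⟩ := h1 g hg
  refine ⟨b, b', fun h5 => h3 ?_⟩
  rw [h4, h4, B1.col_eq_iff] at h5
  exact h5

end Vale.Agent.P291
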