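import Vale.Agent.P291.B2Blk

/-!
# P291, regular parameters: finer form of `kap_lift`
-/

set_option linter.unusedSectionVars false

open MvPolynomial

namespace Vale.Agent.P291

namespace B2

variable {I E B Λ : Type*} [Fintype E] [DecidableEq I] [Fintype B] [DecidableEq B] [CommRing Λ]
  [IsDomain Λ]
variable (Q : QD I E B Λ)

theorem dm_vact {σ : Equiv.Perm B} (hσ : σ ∈ Q.W) (V : Finset (Option B)) :
    Q.dm (vact σ V) = Q.dm V := by
  funext i
  unfold QD.dm vact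
  rw [Finset.filter_map, Finset.card_map]
  congr 1
  refine Finset.filter_congr fun o _ => ?_
  have := vo_map Q hσ o
  show Q.vo (o.map σ) = i ↔ Q.vo o = i
  rw [this]

theorem dm_orb {V V' : Finset (Option B)} (h : Q.orb V V') : Q.dm V' = Q.dm V := by
  obtain ⟨σ, hσ, rfl⟩ := h
  exact dm_vact Q hσ V

theorem vact_compl (σ : Equiv.Perm B) (V : Finset (Option B)) : vact σ Vᶜ = (vact σ V)ᶜ := by
  ext o
  cases o <;> simp [mem_vact_none, mem_vact_some]

theorem orb_compl {V V' : Finset (Option B)} (h : Q.orb V V') : Q.orb Vᶜ V'ᶜ := by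
  obtain ⟨σ, hσ, rfl⟩ := h
  exact ⟨σ, hσ, vact_compl σ V⟩

theorem none_orb {V V' : Finset (Option B)} (h : Q.orb V V') : none ∈ V' ↔ none ∈ V := by
  obtain ⟨σ, _, rfl⟩ := h
  exact mem_vact_none σ V

theorem empty_orb {V V' : Finset (Option B)} (h : Q.orb V V') : V' = ∅ ↔ V = ∅ := by
  obtain ⟨σ, _, rfl⟩ := h
  exact TB.vact_eq_empty

theorem univ_orb {V V' : Finset (Option B)} (h : Q.orb V V') :
    V' = Finset.univ ↔ V = Finset.univ := by
  obtain ⟨σ, _, rfl⟩ := h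
  exact TB.vact_eq_univ

/-- dimension vector of `V_0` -/
theorem dm_VV_zero {m : ℕ} (jj : Option B → Fin (m + 1)) (i : Option I) :
    Q.dm (VV jj 0) i = ∑ j : Fin m, Q.dm (VV jj j.succ)ᶜ i := by
  unfold QD.dm
  have h1 : (VV jj 0).filter (fun o => Q.vo o = i) =
      (Finset.univ : Finset (Fin m)).biUnion
        (fun j => ((VV jj j.succ)ᶜ).filter fun o => Q.vo o = i) := by
    ext o
    simp only [Finset.mem_filter, Finset.mem_biUnion, Finset.mem_univ, true_and,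
      Finset.mem_compl, mem_VV]
    constructor
    · rintro ⟨h1, h2⟩
      have h3 : jj o ≠ 0 := fun h => (mem_VV jj o 0).2 h h1
      exact ⟨(jj o).pred h3, (Fin.succ_pred _ h3).symm, h2⟩
    · rintro ⟨j, h1, h2⟩
      refine ⟨?_, h2⟩
      by_contra h3
      rw [mem_VV, h1] at h3
      exact Fin.succ_ne_zero j h3
  rw [h1, Finset.card_biUnion]
  intro j _ j' _ hjj
  rw [Function.onFun, Finset.disjoint_left]
  intro o h2 h3
  simp only [Finset.mem_filter, Finset.mem_compl, mem_VV] at h2 h3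
  exact hjj (Fin.succ_injective _ (h2.1.symm.trans h3.1))

/-- without framing lines `kap g` only depends on the partition of the boxes -/
theorem kap_congr (hQ : ∀ a, Q.tgt a ≠ none) {g g' : B → ℕ}
    (h : ∀ b b', g b = g b' ↔ g' b = g' b') : Q.kap g = Q.kap g' := by
  have h1 : Q.numG g = Q.numG g' := by
    unfold QD.numG
    refine Finset.prod_congr ?_ fun _ _ => rfl
    refine Finset.filter_congr fun p hp => ?_
    have h2 := (Finset.mem_filter.1 hp).2.2
    rcases h3 : p.2.2 with _ | s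
    · rw [h3] at h2
      exact absurd h2.symm (hQ p.1)
    · rw [not_iff_not]
      exact h _ _
  have h2 : Q.denG g = Q.denG g' := by
    unfold QD.denG
    refine Finset.prod_congr ?_ fun _ _ => rfl
    refine Finset.filter_congr fun p _ => ?_
    rw [not_iff_not]
    exact h _ _
  unfold QD.kap
  rw [h1, h2]

/-- recolouring so that the colour zero occurs -/
theorem exists_recol {g : B → ℕ} (hg : ∃ b b', g b ≠ g b') :
    ∃ g' : B → ℕ, g' ≠ 0 ∧ (∃ b, g' b = 0) ∧ ∀ b b', g b = g b' ↔ g' b = g' b' := by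
  obtain ⟨b0, b1, h⟩ := hg
  refine ⟨fun b => if g b = g b0 then 0 else g b + 1, ?_, ⟨b0, by simp⟩, fun b b' => ?_⟩
  · intro h1
    have h2 := congrFun h1 b1
    simp only [Pi.zero_apply] at h2
    rw [if_neg (Ne.symm h)] at h2
    omega
  · by_cases h1 : g b = g b0 <;> by_cases h2 : g b' = g b0 <;> simp [h1, h2]
    · exact fun h3 => h2 h3.symm

/-- The finer form of `kap_lift`. -/
theorem kap_lift_plus [Algebra ℚ Λ] (g : B → ℕ) (hg : g ≠ 0) (s : SS B Λ) :
    ∃ m : ℕ, ∃ τ ∈ Q.Dec (m + 1),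
      (∀ V', τ V' ≠ 0 → V' 0 ≠ ∅ ∧ none ∉ V' 0 ∧ (∀ j : Fin m, none ∈ V' j.succ) ∧
        (∀ j : Fin m, V' j.succ ≠ Finset.univ) ∧
        (∀ i, Q.dm (V' 0) i = ∑ j : Fin m, Q.dm (V' j.succ)ᶜ i) ∧
        ((∃ b, g b = 0) → ∃ b, some b ∉ V' 0) ∧
        (∀ b, (∑ j, lamV (V' j)) b ≤ 1) ∧ ∀ i, Q.chg i (∑ j, lamV (V' j)) = 0) ∧
      (Q.MT (m + 1) τ).coeff 0 = ∑ σ ∈ Q.Wf, act σ (toK s * Q.kap g) := by
  obtain ⟨m, jj, h1, h2, h3⟩ := exists_index g
  obtain ⟨τ, hτ, h4, h5⟩ := exists_tau Q jj g h1 s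
  refine ⟨m, τ, hτ, fun V' hV' => ?_, h5⟩
  have h6 := h4 V' hV'
  have h7 := h6 0
  have hn : ∀ j, none ∉ V' j ↔ j = 0 := by
    intro j
    rw [none_of_suppOn Q h6, h2]
  have h8 : V' 0 ≠ ∅ ∧ V' 0 ≠ Finset.univ := by
    refine ne_of_orb Q (jj := jj) g hg h1 ?_
    rw [h2]
    exact h7
  refine ⟨h8.1, (hn 0).2 rfl, fun j => ?_, fun j => ?_, fun i => ?_, ?_,
    fun b => le_one_of_orb Q h6 b, fun i => chg_of_orb Q h6 i⟩
  · by_contra h9
    exact Fin.succ_ne_zero j ((hn _).1 h9)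
  · intro h9
    rw [univ_orb Q (h6 j.succ)] at h9
    obtain ⟨o, ho⟩ := h3 j.succ
    have h10 := (mem_VV jj o j.succ).2 ho
    rw [h9] at h10
    exact h10 (Finset.mem_univ _)
  · rw [dm_orb Q h7, dm_VV_zero]
    refine Finset.sum_congr rfl fun j _ => ?_
    rw [dm_orb Q (orb_compl Q (h6 j.succ))]
  · rintro ⟨b, hb⟩
    obtain ⟨σ, hσ, h9⟩ := h7
    refine ⟨σ b, ?_⟩
    have h10 : σ⁻¹ (σ b) = b := by simp
    rw [← h9, mem_vact_some, h10, mem_VV, ← h2, ← h1]
    exact hb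

end B2

end Vale.Agent.P291
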